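import Crest.Agent.N255.Ku.CoS
import Crest.Agent.N255.Le.Abs

/-!
# Row 255 (helper15): affine families for one located parametrix
-/

set_option autoImplicit false
open Set Module

noncomputable section

namespace Crest.Agent.N255.Lp

open Cs Cs.Tw Tp Ku Le

variable {p : ℕ} [Fact p.Prime] {K O : Type} [Field K] [CommRing O] [Algebra K O]
  {G : Gr (Gm p) K O} {m I J : Ideal O} {X : Type} [TopologicalSpace X] {n : ℕ}
  {g g' g0 g1 : Cn G X} {hm : G.Id m} {S : Co (Tw G) 2 X} {W : Sb X}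

theorem ci_cob {φ : Co (Tw G) n X} (h : CI W J φ) : CI W J (cob K φ) :=
  ci_iff.2 fun l hl => by rw [← cob_lc]; exact Sb.cob_mem (ci_iff.1 h l hl)

theorem ci_add {φ ψ : Co (Tw G) n X} (h : CI W J φ) (h' : CI W J ψ) : CI W J (φ + ψ) :=
  fun σ hσ => In.add (h σ hσ) (h' σ hσ)

theorem ci_sub {φ ψ : Co (Tw G) n X} (h : CI W J φ) (h' : CI W J ψ) : CI W J (φ - ψ) :=
  fun σ hσ => In.sub (h σ hσ) (h' σ hσ)

theorem ci_mono {φ : Co (Tw G) n X} (h : CI W I φ) (hI : I ≤ J) : CI W J φ :=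
  fun σ hσ => (h σ hσ).mono hI

theorem ci_le {φ : Co (Tw G) n X} {W' : Sb X} (h : CI W J φ) (hW : W'.Le W) : CI W' J φ :=
  fun σ hσ => h σ (hW n hσ)

theorem ci_univ {φ : Co (Tw G) n X} : CI (On univ) J φ ↔ ∀ σ, In J (φ σ) :=
  ⟨fun h σ => h σ (subset_univ _), fun h σ _ => h σ⟩

theorem lc_sub (l : Dual K (Tw G)) (φ ψ : Co (Tw G) n X) : lc l (φ - ψ) = lc l φ - lc l ψ :=
  funext fun _ => map_sub l _ _

theorem lc_add (l : Dual K (Tw G)) (φ ψ : Co (Tw G) n X) : lc l (φ + ψ) = lc l φ + lc l ψ :=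
  funext fun _ => map_add l _ _

theorem u_sub (hI : G.Id I) {a b : (Tw G)ˣ} (ha : a ∈ U hI) (hb : b ∈ U hI) :
    In I ((a : Tw G) - (b : Tw G)) := by
  simpa only [sub_sub_sub_cancel_right] using In.sub ha hb

/-- add a cochain with values in `m` to a connection -/
def pl (hn : IsNilpotent m) (g0 : Cn G X) (h0 : ∀ σ, g0 σ ∈ U hm) (a : Co (Tw G) 1 X)
    (ha : ∀ σ, In m (a σ)) : Cn G X :=
  fun σ => un hm hn ((g0 σ).val - 1 + a σ) (In.add (h0 σ) (ha σ))

section pl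

variable {hn : IsNilpotent m} {h0 : ∀ σ, g0 σ ∈ U hm} {a : Co (Tw G) 1 X} {ha : ∀ σ, In m (a σ)}

theorem pl_U (σ : Sx 1 X) : pl hn g0 h0 a ha σ ∈ U hm :=
  un_mem _ _ _ _ _ (In.add (h0 σ) (ha σ))

theorem dif_pl : Cs.dif (pl hn g0 h0 a ha) g0 = a :=
  funext fun σ => by simp only [Cs.dif, pl, val_un]; abel

theorem val_pl (σ : Sx 1 X) : (pl hn g0 h0 a ha σ).val = (g0 σ).val + a σ := by
  simp only [pl, val_un]; abel

theorem pl_eq {σ : Sx 1 X} (h : a σ = 0) : pl hn g0 h0 a ha σ = g0 σ :=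
  Units.ext (by rw [val_pl, h, add_zero])

theorem cur_pl (hJ : G.Id J) (h : CI W J a) :
    CI W (m * J) (cur (pl hn g0 h0 a ha) - cur g0 - cob K a) := by
  have := cob_dif_mem (P := W) (g := g0) (g' := pl hn g0 h0 a ha) hJ (fun σ _ => h0 σ)
    (fun σ _ => pl_U σ) (by rwa [dif_pl])
  rwa [dif_pl] at this

end pl

/-- a combination of scalar cochains with coefficients in the twisted ring -/
def src {ι : Type} [Fintype ι] (q : ι → Co K n X) (ε : ι → Tw G) : Co (Tw G) n X :=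
  fun σ => ∑ j, q j σ • ε j

section src

variable {ι : Type} [Fintype ι] {q : ι → Co K n X} {ε ε' : ι → Tw G}

theorem lc_src (l : Dual K (Tw G)) : lc l (src q ε) = ∑ j, l (ε j) • q j :=
  funext fun σ => by simp [lc, src, mul_comm]

theorem src_add : src q (ε + ε') = src q ε + src q ε' :=
  funext fun σ => by simp [src, Finset.sum_add_distrib]

theorem src_sub : src q (ε - ε') = src q ε - src q ε' :=
  funext fun σ => by simp [src, smul_sub, Finset.sum_sub_distrib]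

theorem cob_src : cob K (src q ε) = src (fun j => cob K (q j)) ε :=
  funext fun σ => dual_ext fun l => by
    have := congrFun (cob_lc l (src q ε)) σ
    rw [lc_src, map_sum] at this
    refine this.symm.trans ((congrFun (lc_src l) σ).trans ?_).symm
    simp only [map_smul]

theorem src_ci (h : ∀ j, In J (ε j) ∨ q j ∈ W.van K K n) : CI W J (src q ε) := fun σ hσ =>
  show ∑ j, q j σ • ε j ∈ inS G J from (inS G J).sum_mem fun j _ =>
    (h j).elim (fun h1 => (inS G J).smul_mem _ h1) fun h1 => by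
      rw [h1 σ hσ, zero_smul]; exact zero_mem _

theorem src_in (h : ∀ j, In J (ε j)) (σ : Sx n X) : In J (src q ε σ) :=
  ci_univ.1 (src_ci fun j => Or.inl (h j)) σ

theorem map_src {O' : Type} [CommRing O'] [Algebra K O'] {G' : Gr (Gm p) K O'} {φ : O →ₐ[K] O'}
    (hφ : G.Hom G' φ) (σ : Sx n X) :
    Tw.map hφ (src q ε σ) = src q (fun j => Tw.map hφ (ε j)) σ := by simp [src]

theorem ev_src (c : Ch K n X) : Tp.ev K (src q ε) c = ∑ j, Tp.ev K (q j) c • ε j :=
  dual_ext fun l => by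
    have e : ∀ φ : Co K n X, Tp.ev K φ c = evd c φ := fun φ => (evd_apply c φ).symm
    rw [← ev_lc, lc_src]
    simp [e, mul_comm]

end src

variable (K) in
/-- the part of the curvature that is fed into the parametrix -/
def nl (g1 : Cn G X) (S : Co (Tw G) 2 X) (g : Cn G X) : Co (Tw G) 2 X :=
  cur g - cob K (Cs.dif g g1) - S

theorem nl_sub (g g' : Cn G X) :
    nl K g1 S g' - nl K g1 S g = cur g' - cur g - cob K (Cs.dif g' g) := by
  have : Cs.dif g' g = Cs.dif g' g1 - Cs.dif g g1 := funext fun σ => by simp [Cs.dif]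
  rw [this, map_sub, nl, nl]; abel

theorem nl_self : nl K g1 S g1 = cur g1 - S := by
  rw [nl, show Cs.dif g1 g1 = 0 from funext fun σ => sub_self _, map_zero, sub_zero]

theorem nl_lin (hI : G.Id I) (h1 : CU W hm g1) (h : CU W hm g) (f : CI W I (Cs.dif g g1)) :
    CI W (m * I) (nl K g1 S g - (cur g1 - S)) := by
  rw [← nl_self (K := K), nl_sub]; exact cob_dif_mem hI h1 h f

variable [Module.Finite K O] {H : Co K 2 X →ₗ[K] Co K 1 X}

theorem lc_tens (l : Dual K (Tw G)) (φ : Co (Tw G) 2 X) : lc l (tens H φ) = H (lc l φ) :=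
  dual_tens' H φ l

theorem ci_tens {W' : Sb X} (hH : ∀ f ∈ W.van K K 2, H f ∈ W'.van K K 1) {φ : Co (Tw G) 2 X}
    (h : CI W J φ) : CI W' J (tens H φ) :=
  ci_iff.2 fun l hl => by rw [lc_tens]; exact hH _ (ci_iff.1 h l hl)

theorem tev_ci {D : Dual K (Co K n X)} (hD : ∀ f ∈ W.van K K n, D f = 0) {φ : Co (Tw G) n X}
    (h : CI W J φ) : In J (tev D φ) :=
  mem_of_dual (N := inS G J) (x := tev D φ) fun l hl =>
    (dual_tev D φ l).trans (hD _ (ci_iff.1 h l hl))

theorem tev_src {ι : Type} [Fintype ι] (D : Dual K (Co K n X)) (q : ι → Co K n X) (ε : ι → Tw G) :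
    tev D (src q ε) = ∑ j, D (q j) • ε j :=
  dual_ext fun l => by
    rw [dual_tev]
    change D (lc l (src q ε)) = _
    simp [lc_src, mul_comm]

/-- **the affine family**: `g = g1 - H (cur g - d (g - g1) - S)` -/
structure Fam (hm : G.Id m) (H : Co K 2 X →ₗ[K] Co K 1 X) (g1 : Cn G X) (S : Co (Tw G) 2 X)
    (g : Cn G X) : Prop where
  u1 : ∀ σ, g1 σ ∈ U hm
  u : ∀ σ, g σ ∈ U hm
  eq : Cs.dif g g1 = -tens H (nl K g1 S g)

theorem exists_fam (hn : IsNilpotent m) (H : Co K 2 X →ₗ[K] Co K 1 X) (h1 : ∀ σ, g1 σ ∈ U hm)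
    (hS : ∀ σ, In m (S σ)) : ∃ g, Fam hm H g1 S g := by
  have key : ∀ (s : Sx 1 X → U hm) e,
      In m ((g1 e).val - 1 - tens H (nl K g1 S fun e => (s e).1) e) := fun s e =>
    In.sub (h1 e) (tens_in H (ψ := nl K g1 S fun e => (s e).1) (fun x => In.sub (In.sub
      ((sD X).F_in hm (fun e => (s e).2) x) (ci_univ.1 (ci_cob (φ := Cs.dif (fun e => (s e).1) g1)
        (ci_univ.2 fun e => u_sub hm (s e).2 (h1 e))) x)) (hS x)) e)
  obtain ⟨s, hs⟩ := fixU hm hn (fun s e => unU hm hn _ (key s e)) fun s s' I hI h2 e => by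
    simp only [val_unU, add_sub_add_left_eq_sub, sub_sub_sub_cancel_left]
    rw [← neg_sub, ← tens_sub]
    refine In.neg (tens_in H (fun x => ?_) e)
    rw [← Pi.sub_apply, nl_sub]
    exact ci_univ.1 (cob_dif_mem hI (fun e _ => (s e).2) (fun e _ => (s' e).2) fun e _ => h2 e) x
  refine ⟨fun e => (s e).1, h1, fun e => (s e).2, funext fun e => ?_⟩
  have := congrArg (fun s => (s e).1.val) hs
  simp only [val_unU] at this
  rw [Cs.dif, ← this, Pi.neg_apply]; abel

namespace Fam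

variable (F : Fam hm H g1 S g)
include F

theorem cu (W : Sb X) : CU W hm g := fun σ _ => F.u σ

theorem cu1 (W : Sb X) : CU W hm g1 := fun σ _ => F.u1 σ

theorem dual (l : Dual K (Tw G)) : lc l (Cs.dif g g1) = -H (lc l (nl K g1 S g)) := by
  rw [F.eq, ← lc_tens]; exact funext fun _ => map_neg l _

theorem curv (l : Dual K (Tw G)) :
    lc l (cur g - S) = lc l (nl K g1 S g) - cob K (H (lc l (nl K g1 S g))) := by
  rw [sub_eq_add_neg (lc l _), ← map_neg, ← F.dual, cob_lc, ← lc_add, nl]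
  congr 1; abel

theorem tev_curv (D : Dual K (Co K 2 X)) :
    tev D (cur g - S) = tev (D - D ∘ₗ cob K ∘ₗ H) (nl K g1 S g) :=
  dual_ext fun l => by
    rw [dual_tev, dual_tev]
    exact (congrArg D (F.curv l)).trans (map_sub D _ _)

/-- control of the correction by the residual curvature of the base -/
theorem dif_in (hn : IsNilpotent m) (hJ : G.Id J) (hH : ∀ f ∈ W.van K K 2, H f = 0)
    (h : CI W J (cur g1 - S)) (σ : Sx 1 X) : In J (Cs.dif g g1 σ) :=
  ci_univ.1 (ci_of_step hm hn hJ fun I hI f e he => by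
    rw [F.eq]
    refine In.neg (ci_tens (W := W) (fun q hq => hH q hq ▸ zero_mem _) ?_ e he)
    rw [← sub_add_cancel (nl K g1 S g) (cur g1 - S)]
    exact ci_add (ci_mono (nl_lin hI (F.cu1 W) (F.cu W) fun e _ => f e (subset_univ _)) le_sup_right)
      (ci_mono h le_sup_left)) σ

theorem dif_in' (hn : IsNilpotent m) (hJ : G.Id J) (h : ∀ σ, In J ((cur g1 - S) σ)) (σ : Sx 1 X) :
    In J (Cs.dif g g1 σ) :=
  F.dif_in hn hJ (W := On univ) (fun f hf => by
    rw [show f = 0 from funext fun σ => hf σ (subset_univ _), map_zero]) (ci_univ.2 h) σ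

/-- first order term of the correction -/
theorem dif_lin (hJ : G.Id J) (h : ∀ σ, In J (Cs.dif g g1 σ)) (σ : Sx 1 X) :
    In (m * J) (Cs.dif g g1 σ + tens H (cur g1 - S) σ) := by
  have := tens_in H (ci_univ.1 (nl_lin (S := S) hJ (F.cu1 _) (F.cu _) (ci_univ.2 h))) σ
  rw [F.eq, Pi.neg_apply, neg_add_eq_sub, ← neg_sub]
  exact In.neg (by convert this using 1; exact (tens_sub H _ _ σ).symm)

/-- first order term of a period of the curvature -/
theorem tev_lin (hJ : G.Id J) (h : ∀ σ, In J (Cs.dif g g1 σ)) (D : Dual K (Co K 2 X)) :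
    In (m * J) (tev D (cur g - S) - tev (D - D ∘ₗ cob K ∘ₗ H) (cur g1 - S)) := by
  rw [F.tev_curv, ← map_sub]
  exact tev_in _ (ci_univ.1 (nl_lin hJ (F.cu1 _) (F.cu _) (ci_univ.2 h)))

omit [Module.Finite K O] F in
theorem cur_in (hJ : G.Id J) (h : ∀ σ, In J (Cs.dif g g1 σ)) (h' : CI W J (cur g1 - S)) :
    CI W J (cur g - S) := by
  rw [← sub_add_sub_cancel (cur g) (cur g1) S]
  exact ci_add (cur_sub_mem' hJ fun σ _ => h σ) h'

theorem uniq (hn : IsNilpotent m) (F' : Fam hm H g1 S g') : g' = g := by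
  have := ci_univ.1 (ci_of_step hm hn G.id_bot (φ := Cs.dif g' g) fun I hI f e _ => by
    have e1 : Cs.dif g' g e = Cs.dif g' g1 e - Cs.dif g g1 e := by simp [Cs.dif]
    rw [e1, F.eq, F'.eq, Pi.neg_apply, Pi.neg_apply, neg_sub_neg, ← neg_sub, ← tens_sub]
    refine (In.neg (tens_in H (fun x => ?_) e)).mono le_sup_right
    rw [← Pi.sub_apply, nl_sub]
    exact ci_univ.1 (cob_dif_mem hI (F.cu _) (F'.cu _) f) x)
  exact funext fun e => Units.ext (sub_eq_zero.1 (in_bot.1 (this e)))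

section par

variable {C : Submodule K (Co K 1 X)} {P : Co K 2 X →ₗ[K] Co K 2 X} {E A : Submodule K (Co K 2 X)}

theorem mem (h : ∀ f, H f ∈ C) (l : Dual K (Tw G)) : lc l (Cs.dif g g1) ∈ C :=
  F.dual l ▸ neg_mem (h _)

theorem par (h : Par (cob K) C P E H) (l : Dual K (Tw G)) : P (lc l (cur g - S)) ∈ E :=
  F.curv l ▸ h.nf _

/-- the family is the base outside a compact set -/
theorem far (h : ∀ f, H f ∈ Cc K univ K 1) :
    ∃ B, IsCompact B ∧ ∀ σ ∈ (On Bᶜ).S 1, g σ = g1 σ := by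
  have : Nonempty {B : Set X // IsCompact B} := ⟨⟨∅, isCompact_empty⟩⟩
  obtain ⟨B, hB⟩ := Ov.dir (ι := {B : Set X // IsCompact B}) (N := ⊥) (φ := Cs.dif g g1)
    (A := fun B => (On B.1ᶜ).van K K 1) (fun a b => ⟨⟨a.1 ∪ b.1, a.2.union b.2⟩,
      Sb.van_mono (On_le (compl_subset_compl.2 subset_union_left)),
      Sb.van_mono (On_le (compl_subset_compl.2 subset_union_right))⟩) fun l _ => by
      obtain ⟨B, h1, -, h2⟩ := F.mem h l
      exact Submodule.mem_iSup_of_mem ⟨B, h1⟩ h2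
  exact ⟨B.1, B.2, fun σ hσ => Units.ext (sub_eq_zero.1 (ov_vn.1 hB σ hσ))⟩

end par

end Fam

section eps

variable {ι : Type} [Fintype ι] {D : ι → Dual K (Co K 2 X)} {q : ι → Co K 2 X}
  {P : Co K 2 X →ₗ[K] Co K 2 X} {C : Submodule K (Co K 1 X)} {E A : Submodule K (Co K 2 X)}

/-- the coefficients of the sources `q j` in the curvature -/
def eps (D : ι → Dual K (Co K 2 X)) (S : Co (Tw G) 2 X) (g : Cn G X) (j : ι) : Tw G :=
  tev (D j) (cur g - S)

/-- the normalised part of the curvature -/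
def rst (D : ι → Dual K (Co K 2 X)) (q : ι → Co K 2 X) (S : Co (Tw G) 2 X) (g : Cn G X) :
    Co (Tw G) 2 X := cur g - S - src q (eps D S g)

theorem lc_rst (hP : ∀ f, P f = f - ∑ j, D j f • q j) (l : Dual K (Tw G)) :
    lc l (rst D q S g) = P (lc l (cur g - S)) := by
  rw [hP, rst, lc_sub, lc_src]
  simp only [eps, dual_tev]

theorem Fam.nf (F : Fam hm H g1 S g) (hP : ∀ f, P f = f - ∑ j, D j f • q j)
    (h : Par (cob K) C P E H) (l : Dual K (Tw G)) : lc l (rst D q S g) ∈ E :=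
  lc_rst hP l ▸ F.par h l

/-- **(S1)** an exact component of the normalised curvature vanishes -/
theorem Fam.s1 (F : Fam hm H g1 S g) (hP : ∀ f, P f = f - ∑ j, D j f • q j)
    (h : Par (cob K) C P E H) (hN : Nm (cob K) C P E A) (hq : ∀ j, q j ∈ C.map (cob K) ⊔ A)
    (l : Dual K (Tw G)) (hl : lc l (rst D q S g) ∈ C.map (cob K) ⊔ A) : lc l (rst D q S g) ∈ A := by
  rw [lc_rst hP] at hl ⊢
  refine hN _ (F.par h l) ?_
  rw [hP] at hl
  simpa using add_mem hl (sum_mem fun j (_ : j ∈ Finset.univ) =>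
    Submodule.smul_mem _ (D j (lc l (cur g - S))) (hq j))

omit [Fintype ι] in
theorem eps_ci {j : ι} (hD : ∀ f ∈ W.van K K 2, D j f = 0) (h : CI W J (cur g - S)) :
    In J (eps D S g j) := tev_ci hD h

/-- the periods of the normalised part vanish -/
theorem tev_rst [DecidableEq ι] (hD : ∀ i j, D i (q j) = if i = j then 1 else 0) (i : ι) :
    tev (D i) (rst D q S g) = 0 := by
  rw [rst, map_sub, tev_src]
  simp [hD, eps]

end eps

section map

variable {O' : Type} [CommRing O'] [Algebra K O'] [Module.Finite K O'] {G' : Gr (Gm p) K O'}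
  {φ : O →ₐ[K] O'} {m' J' : Ideal O'} {hm' : G'.Id m'}

/-- the image of a cochain -/
def mc (hφ : G.Hom G' φ) (S : Co (Tw G) n X) : Co (Tw G') n X := fun σ => Tw.map hφ (S σ)

omit [Module.Finite K O] [Module.Finite K O'] in
theorem mc_sub (hφ : G.Hom G' φ) (a b : Co (Tw G) n X) : mc hφ (a - b) = mc hφ a - mc hφ b :=
  funext fun _ => map_sub (Tw.map hφ) _ _

omit [Module.Finite K O] [Module.Finite K O'] in
theorem mc_cur (hφ : G.Hom G' φ) (g : Cn G X) : mc hφ (cur g) = cur (mp hφ g) :=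
  funext fun σ => (cur_mp hφ g σ).symm

omit [Module.Finite K O] [Module.Finite K O'] in
theorem mc_dif (hφ : G.Hom G' φ) (g' g : Cn G X) :
    mc hφ (Cs.dif g' g) = Cs.dif (mp hφ g') (mp hφ g) := funext fun σ => (dif_um hφ g' g σ).symm

omit [Module.Finite K O] [Module.Finite K O'] in
theorem mc_cob (hφ : G.Hom G' φ) (a : Co (Tw G) n X) : mc hφ (cob K a) = cob K (mc hφ a) :=
  funext fun σ => (cob_map (Tw.map hφ).toLinearMap a σ).symm

omit [Module.Finite K O] [Module.Finite K O'] in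
theorem mc_nl (hφ : G.Hom G' φ) : mc hφ (nl K g1 S g) = nl K (mp hφ g1) (mc hφ S) (mp hφ g) := by
  simp only [nl, mc_sub, mc_cur, mc_cob, mc_dif]

theorem mc_tens (hφ : G.Hom G' φ) (a : Co (Tw G) 2 X) : mc hφ (tens H a) = tens H (mc hφ a) :=
  funext fun σ => (tens_map (Tw.map hφ).toLinearMap H a σ).symm

theorem map_tev (hφ : G.Hom G' φ) (D : Dual K (Co K n X)) (a : Co (Tw G) n X) :
    Tw.map hφ (tev D a) = tev D (mc hφ a) := (tev_map (Tw.map hφ).toLinearMap D a).symm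

theorem Fam.map (F : Fam hm H g1 S g) (hφ : G.Hom G' φ) (h : ∀ x ∈ m, φ x ∈ m') :
    Fam hm' H (mp hφ g1) (mc hφ S) (mp hφ g) :=
  ⟨fun σ => um_mem hφ hm hm' h (F.u1 σ), fun σ => um_mem hφ hm hm' h (F.u σ), by
    rw [← mc_dif, F.eq, ← mc_nl, ← mc_tens]; exact funext fun _ => map_neg (Tw.map hφ) _⟩

theorem map_eps {ι : Type} (hφ : G.Hom G' φ) (D : ι → Dual K (Co K 2 X)) (j : ι) :
    Tw.map hφ (eps D S g j) = eps D (mc hφ S) (mp hφ g) j := by
  rw [eps, map_tev, mc_sub, mc_cur, eps]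

theorem mc_rst {ι : Type} [Fintype ι] (hφ : G.Hom G' φ) (D : ι → Dual K (Co K 2 X))
    (q : ι → Co K 2 X) : mc hφ (rst D q S g) = rst D q (mc hφ S) (mp hφ g) := by
  rw [rst, mc_sub, mc_sub, mc_cur, rst, ← funext (map_eps hφ D)]
  exact congrArg _ (funext (map_src hφ))

end map

section cmp

variable {H' : Co K 2 X →ₗ[K] Co K 1 X} {g1' : Cn G X} {S' : Co (Tw G) 2 X}

/-- one step of the comparison of two families -/
theorem Fam.cmp1 (F : Fam hm H g1 S g) (F' : Fam hm H' g1' S' g') (hI : G.Id I) {W' : Sb X}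
    (hW : W'.Le W) (hH : ∀ f, H' f - H f ∈ W'.van K K 1)
    (fl : ∀ f ∈ W.van K K 2, H f ∈ W'.van K K 1) (h1 : CI W J (Cs.dif g1' g1))
    (hS : CI W J (S' - S)) (h : CI W I (Cs.dif g' g)) : CI W' (J ⊔ m * I) (Cs.dif g' g) := by
  have e1 : Cs.dif g' g = Cs.dif g1' g1 + (Cs.dif g' g1' - Cs.dif g g1) :=
    funext fun σ => by simp only [Cs.dif, Pi.add_apply, Pi.sub_apply]; abel
  have e2 : nl K g1' S' g' - nl K g1 S g =
      cur g' - cur g - cob K (Cs.dif g' g) + (cob K (Cs.dif g1' g1) - (S' - S)) := by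
    rw [e1, map_add, map_sub, nl, nl]; abel
  have h2 : CI W (J ⊔ m * I) (nl K g1' S' g' - nl K g1 S g) := e2 ▸
    ci_add (ci_mono (cob_dif_mem hI (F.cu W) (F'.cu W) h) le_sup_right)
      (ci_mono (ci_sub (ci_cob h1) hS) le_sup_left)
  rw [e1]
  refine ci_add (ci_mono (ci_le h1 hW) le_sup_left) (ci_iff.2 fun l hl => ?_)
  have := add_mem (hH (lc l (nl K g1' S' g'))) (fl _ (ci_iff.1 h2 l hl))
  rw [lc_sub, map_sub, sub_add_sub_cancel] at this
  rw [lc_sub, F.dual, F'.dual, neg_sub_neg, ← neg_sub]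
  exact neg_mem this

/-- **comparison**: one order of `m` is gained on every window -/
theorem Fam.cmp (F : Fam hm H g1 S g) (F' : Fam hm H' g1' S' g') (hJ : G.Id J) {Z : ℕ → Sb X}
    (hZ : ∀ k, (Z (k + 1)).Le (Z k)) {a b : ℕ} (hH : ∀ f, H' f - H f ∈ (Z a).van K K 1)
    (fl : ∀ k, a ≤ k → k < b → ∀ f ∈ (Z k).van K K 2, H f ∈ (Z (k + 1)).van K K 1)
    (h1 : CI (Z a) J (Cs.dif g1' g1)) (hS : CI (Z a) J (S' - S)) {k : ℕ} (hk : a + k ≤ b) :
    CI (Z (a + k)) (J ⊔ m ^ (k + 1)) (Cs.dif g' g) := by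
  have le : ∀ k, (Z (a + k)).Le (Z a) := fun k => by
    induction k with
    | zero => exact Sb.Le.refl _
    | succ k ih => exact (hZ _).trans ih
  induction k with
  | zero => exact fun σ _ => (u_sub hm (F'.u σ) (F.u σ)).mono (by simp)
  | succ k ih =>
    refine ci_mono (F.cmp1 F' (hJ.sup (hm.pow (k + 1))) (hZ (a + k))
      (fun f => Sb.van_mono (le (k + 1)) (hH f)) (fl _ (by omega) (by omega)) (ci_le h1 (le k))
      (ci_le hS (le k)) (ih (by omega))) (sup_le le_sup_left ?_)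
    rw [Ideal.mul_sup, ← pow_succ']
    exact sup_le_sup_right Ideal.mul_le_right _

/-- comparison of periods of the curvature -/
theorem tev_cmp (hJ : G.Id J) {D : Dual K (Co K 2 X)} (hD : ∀ f ∈ W.van K K 2, D f = 0)
    (h : CI W J (Cs.dif g' g)) (hS : CI W J (S' - S)) :
    In J (tev D (cur g' - S') - tev D (cur g - S)) := by
  rw [← map_sub, sub_sub_sub_comm]
  exact tev_ci hD (ci_sub (cur_sub_mem' hJ h) hS)

end cmp

end Crest.Agent.N255.Lp

end
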