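import Crest.Agent.N255.Lp.Fam

/-!
# Row 255 (helper15): affine families in the coordinates given by the sources
-/

set_option autoImplicit false
open Set Module

noncomputable section

namespace Crest.Agent.N255.Lp

open Cs Cs.Tw Tp Ku Le

variable {p : ℕ} [Fact p.Prime] {K O : Type} [Field K] [CommRing O] [Algebra K O]
  {G : Gr (Gm p) K O} {m I J : Ideal O} {X : Type} [TopologicalSpace X] {n : ℕ}
  {g g' g0 g1 : Cn G X} {hm : G.Id m} {S : Co (Tw G) 2 X} {W : Sb X} {ι : Type} [Fintype ι]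
  {H : Co K 2 X →ₗ[K] Co K 1 X} {lam : ι → Dual K (Co K 2 X)} {ct : ι → Co K 1 X}
  {C : Submodule K (Co K 1 X)} {E A : Submodule K (Co K 2 X)}

/-- the parametrix with the class terms -/
def hp (H : Co K 2 X →ₗ[K] Co K 1 X) (lam : ι → Dual K (Co K 2 X)) (ct : ι → Co K 1 X) :
    Co K 2 X →ₗ[K] Co K 1 X := H + ∑ j, (lam j).smulRight (ct j)

theorem hp_apply (f : Co K 2 X) : hp H lam ct f = H f + ∑ j, lam j f • ct j := by
  simp [hp, LinearMap.sum_apply]

theorem hp_mem (h : ∀ f, H f ∈ C) (hc : ∀ j, ct j ∈ C) (f : Co K 2 X) : hp H lam ct f ∈ C := by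
  rw [hp_apply]; exact add_mem (h f) (sum_mem fun j _ => C.smul_mem _ (hc j))

theorem cob_hp (f : Co K 2 X) :
    f - cob K (hp H lam ct f) = f - cob K (H f) - ∑ j, lam j f • cob K (ct j) := by
  simp only [hp_apply, map_add, map_sum, map_smul, _root_.sub_sub]

theorem hp_van {W' : Sb X} {f : Co K 2 X} (h : H f ∈ W'.van K K 1)
    (hc : ∀ j, lam j f = 0 ∨ ct j ∈ W'.van K K 1) : hp H lam ct f ∈ W'.van K K 1 := by
  rw [hp_apply]
  exact add_mem h (sum_mem fun j _ => (hc j).elim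
    (fun e => by rw [e, zero_smul]; exact zero_mem _) fun e => Submodule.smul_mem _ _ e)

theorem par_hp (h : ∀ f, H f ∈ C) (hc : ∀ j, ct j ∈ C)
    (nf : ∀ f, f - cob K (H f) - ∑ j, lam j f • cob K (ct j) ∈ E) :
    Par (cob K) C LinearMap.id E (hp H lam ct) :=
  ⟨hp_mem h hc, fun f => show f - cob K (hp H lam ct f) ∈ E by rw [cob_hp]; exact nf f⟩

/-- change of the base point -/
theorem nl_base (g0 : Cn G X) :
    nl K g1 S g = nl K g0 (S - cob K (Cs.dif g1 g0)) g := by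
  have : Cs.dif g g0 = Cs.dif g g1 + Cs.dif g1 g0 := funext fun σ => by simp [Cs.dif]
  rw [nl, nl, this, map_add]; abel

theorem nl_pl {hn : IsNilpotent m} {h0 : ∀ σ, g0 σ ∈ U hm} {a : Co (Tw G) 1 X}
    {ha : ∀ σ, In m (a σ)} : nl K (pl hn g0 h0 a ha) S g = nl K g0 (S - cob K a) g := by
  rw [nl_base g0, dif_pl]

theorem dif_trans (g g1 g0 : Cn G X) : Cs.dif g g0 = Cs.dif g g1 + Cs.dif g1 g0 :=
  funext fun σ => by simp [Cs.dif]

variable [Module.Finite K O]

theorem tens_hp (φ : Co (Tw G) 2 X) :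
    tens (hp H lam ct) φ = tens H φ + src ct fun j => tev (lam j) φ :=
  funext fun σ => dual_ext fun l => by
    have := congrFun (lc_src (q := ct) (ε := fun j => tev (lam j) φ) l) σ
    rw [dual_tens, hp_apply, Pi.add_apply, Pi.add_apply, map_add, dual_tens]
    simp only [dual_tev] at this
    exact congrArg _ this.symm

namespace Fam

/-- the residual curvature is a normal form -/
theorem nf0 (F : Fam hm H g1 S g) (nf : ∀ f, f - cob K (H f) ∈ E) (l : Dual K (Tw G)) :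
    lc l (cur g - S) ∈ E := F.curv l ▸ nf _

theorem nfE (F : Fam hm (hp H lam ct) g1 S g)
    (nf : ∀ f, f - cob K (H f) - ∑ j, lam j f • cob K (ct j) ∈ E) (l : Dual K (Tw G)) :
    lc l (cur g - S) ∈ E := F.nf0 (fun f => by rw [cob_hp]; exact nf f) l

/-- **(S1)** as one retreat: `W'` is the larger zone on which Bianchi is used -/
theorem s1E (F : Fam hm H g1 S g) (nf : ∀ f, f - cob K (H f) ∈ E) {W' : Sb X} (hI : G.Id I)
    (hc : CI W' I (cur g)) (hS : CI W' (J ⊔ m * I) (cob K S))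
    (det : ∀ l, Kl l (J ⊔ m * I) → lc l (cur g - S) ∈ E → lc l (cur g - S) ∈ W'.Z K K 2 →
      lc l (cur g - S) ∈ W.van K K 2) : CI W (J ⊔ m * I) (cur g - S) :=
  ci_iff.2 fun l hl => det l hl (F.nf0 nf l) (by
    rw [Sb.mem_Z, cob_lc, map_sub]
    exact ci_iff.1 (ci_sub (ci_mono (cob_cur_mem hI (F.cu W') hc) le_sup_right) hS) l hl)

theorem dif_hp (F : Fam hm (hp H lam ct) g1 S g) : Cs.dif g g1 =
    -tens H (nl K g1 S g) - src ct fun j => tev (lam j) (nl K g1 S g) := by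
  rw [F.eq, tens_hp]; abel

/-- the defining equation relative to another base point -/
theorem dif_base (F : Fam hm H g1 S g) (g0 : Cn G X) :
    Cs.dif g g0 = Cs.dif g1 g0 - tens H (nl K g0 (S - cob K (Cs.dif g1 g0)) g) := by
  rw [dif_trans g g1 g0, F.eq, nl_base g0]; abel

theorem of_base (h1 : ∀ σ, g1 σ ∈ U hm) (h : ∀ σ, g σ ∈ U hm) (g0 : Cn G X)
    (e : Cs.dif g g0 = Cs.dif g1 g0 - tens H (nl K g0 (S - cob K (Cs.dif g1 g0)) g)) :
    Fam hm H g1 S g :=
  ⟨h1, h, by rw [nl_base g0, ← add_left_inj (Cs.dif g1 g0), ← dif_trans, e]; abel⟩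

/-- class terms can be moved into the base point -/
theorem un_hp (F : Fam hm (hp H lam ct) g1 S g) {g2 : Cn G X} (h2 : ∀ σ, g2 σ ∈ U hm)
    (e : Cs.dif g2 g1 = -src ct fun j => tev (lam j) (nl K g1 S g)) :
    Fam hm H g2 (S - cob K (Cs.dif g1 g2)) g :=
  ⟨h2, F.u, by
    rw [← nl_base, ← add_left_inj (Cs.dif g2 g1), ← dif_trans, F.dif_hp, e]; abel⟩

end Fam

end Crest.Agent.N255.Lp

end
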