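import Crest.Agent.N255.Ku.Lin

/-!
# Row 255 (helper15): located normal forms and located contractions on the cochain side
-/

set_option autoImplicit false
open Set

namespace Crest.Agent.N255.Lp

variable {K M N : Type*} [Field K] [AddCommGroup M] [Module K M] [AddCommGroup N] [Module K N]

/-- a linear selection in a relation, adapted to two flags -/
theorem exists_lin (Γ : Submodule K (M × N)) {V : ℕ → Submodule K M} {W : ℕ → Submodule K N}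
    (hV : Monotone V) (hW : Monotone W) (n : ℕ)
    (h : ∀ k ≤ n, ∀ f ∈ V k, ∃ c ∈ W k, (f, c) ∈ Γ) :
    ∃ H : M →ₗ[K] N, ∀ k ≤ n, ∀ f ∈ V k, H f ∈ W k ∧ (f, H f) ∈ Γ := by
  obtain ⟨s, -, h2⟩ := Ku.exists_sec (LinearMap.fst K M N) (P := fun k => Γ ⊓ (V k).prod (W k))
    (fun a b hab => inf_le_inf_left _ (Submodule.prod_mono (hV hab) (hW hab))) n
  refine ⟨LinearMap.snd K M N ∘ₗ s, fun k hk f hf => ?_⟩
  obtain ⟨c, hc, hΓ⟩ := h k hk f hf
  obtain ⟨⟨a1, a2⟩, a3⟩ := h2 k hk (f, c) ⟨hΓ, hf, hc⟩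
  refine ⟨a2.2, ?_⟩
  have e : s f = (f, (s f).2) := Prod.ext a3 rfl
  exact e ▸ (a1 : s f ∈ Γ)

/-- `E` is a normal form modulo `R` on all zones of `𝒜` (a zone is the space of the cochains that
vanish on it) -/
structure Ns (R E : Submodule K M) (𝒜 : Set (Submodule K M)) : Prop where
  top : ∀ f, ∃ r ∈ R, f - r ∈ E
  nf : ∀ A ∈ 𝒜, ∀ e ∈ E, ∀ r ∈ R, e - r ∈ A → e ∈ A
  low : ∀ f, (∀ A ∈ 𝒜, f ∈ A) → f ∈ E

variable {R E : Submodule K M} {𝒜 ℬ : Set (Submodule K M)}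

theorem ns_empty (R : Submodule K M) : Ns R ⊤ ∅ :=
  ⟨fun _ => ⟨0, zero_mem _, trivial⟩, fun _ h => h.elim, fun _ _ => trivial⟩

/-- normalised up to `A` and exact up to `A` -/
theorem Ns.nf' (h : Ns R E 𝒜) {A : Submodule K M} (hA : A ∈ 𝒜) {f e r : M} (he : e ∈ E)
    (hr : r ∈ R) (h1 : f - e ∈ A) (h2 : f - r ∈ A) : f ∈ A := by
  have := add_mem h1 (h.nf A hA e he r hr (by simpa using sub_mem h2 h1))
  simpa using this

/-- one more zone -/
theorem Ns.step (h : Ns R E 𝒜) {B : Submodule K M}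
    (H : ∀ r ∈ R, (∀ A ∈ 𝒜, B ≤ A → r ∈ A) → ∃ r' ∈ R, (∀ A ∈ 𝒜, r' ∈ A) ∧ r' - r ∈ B) :
    ∃ E' ≤ E, Ns R E' (insert B 𝒜) := by
  obtain ⟨F, hF⟩ := ((E ⊓ (R ⊔ B)).comap E.subtype).exists_isCompl
  have key : ∀ e ∈ E, e ∈ R ⊔ B → ∃ r ∈ R, r ∈ E ∧ e - r ∈ B := fun e he h1 => by
    obtain ⟨r, hr, b, hb, rfl⟩ := Submodule.mem_sup.1 h1
    obtain ⟨r', k1, k2, k3⟩ := H r hr fun A hA hB => by
      have := h.nf A hA _ he r hr (by simpa using hB hb)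
      simpa using sub_mem this (hB hb)
    refine ⟨r', k1, h.low _ k2, ?_⟩
    convert sub_mem hb k3 using 1
    abel
  have le : E ⊓ B ⊔ F.map E.subtype ≤ E := sup_le inf_le_left (Submodule.map_subtype_le _ _)
  refine ⟨_, le, fun f => ?_, ?_, fun f hf => Submodule.mem_sup_left
    ⟨h.low f fun A hA => hf A (mem_insert_of_mem _ hA), hf B (mem_insert _ _)⟩⟩
  · obtain ⟨r, hr, he⟩ := h.top f
    obtain ⟨a, ha, b, hb, e⟩ := Submodule.mem_sup.1 (hF.sup_eq_top ▸ Submodule.mem_top :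
      (⟨f - r, he⟩ : E) ∈ (E ⊓ (R ⊔ B)).comap E.subtype ⊔ F)
    obtain ⟨r', k1, k2, k3⟩ := key a a.2 ha.2
    refine ⟨r + r', add_mem hr k1, ?_⟩
    have e' : (a : M) + b = f - r := congrArg Subtype.val e
    rw [← sub_sub, ← e', add_sub_right_comm]
    exact Submodule.add_mem_sup ⟨sub_mem a.2 k2, k3⟩ ⟨b, hb, rfl⟩
  · rintro A (rfl | hA) e he r hr h1
    · obtain ⟨a, ha, _, ⟨b, hb, rfl⟩, rfl⟩ := Submodule.mem_sup.1 he
      have e : r + (a + E.subtype b - r - a) = E.subtype b := by abel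
      have : b ∈ (E ⊓ (R ⊔ A)).comap E.subtype :=
        ⟨b.2, show E.subtype b ∈ R ⊔ A from e ▸ Submodule.add_mem_sup hr (sub_mem h1 ha.2)⟩
      rw [(Submodule.mem_bot K).1 (hF.inf_eq_bot ▸ ⟨this, hb⟩ : b ∈ ⊥)]
      simpa using ha.2
    · exact h.nf A hA e (le he) r hr h1

/-- finitely many more zones -/
theorem Ns.steps (h : Ns R E 𝒜) (hℬ : ℬ.Finite)
    (H : ∀ B ∈ ℬ, ∀ r ∈ R, (∀ A ∈ 𝒜, B ≤ A → r ∈ A) →
      ∃ r' ∈ R, (∀ A ∈ 𝒜, r' ∈ A) ∧ (∀ A ∈ ℬ, A ≠ B → r' ∈ A) ∧ r' - r ∈ B) :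
    ∃ E' ≤ E, Ns R E' (ℬ ∪ 𝒜) := by
  induction ℬ, hℬ using Set.Finite.induction_on with
  | empty => exact ⟨E, le_rfl, by rwa [empty_union]⟩
  | @insert B ℬ hB _ ih =>
    obtain ⟨E', h1, h2⟩ := ih fun A hA r hr k => by
      obtain ⟨r', a1, a2, a3, a4⟩ := H A (mem_insert_of_mem _ hA) r hr k
      exact ⟨r', a1, a2, fun A' hA' => a3 A' (mem_insert_of_mem _ hA'), a4⟩
    obtain ⟨E'', h3, h4⟩ := h2.step (B := B) fun r hr k => by
      obtain ⟨r', a1, a2, a3, a4⟩ := H B (mem_insert _ _) r hr fun A hA => k A (Or.inr hA)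
      refine ⟨r', a1, ?_, a4⟩
      rintro A (hA | hA)
      exacts [a3 A (mem_insert_of_mem _ hA) fun e => hB (e ▸ hA), a2 A hA]
    exact ⟨E'', h3.trans h1, by rwa [insert_union]⟩

/-- **Lemma E**: overlaps `V`, zones `O` -/
theorem lemE {ν ω : Type*} [Finite ν] [Finite ω] (R : Submodule K M) (V : ν → Submodule K M)
    (O : ω → Submodule K M) (hV : ∀ v, ∀ r ∈ R, ∃ r' ∈ R, (∀ v' ≠ v, r' ∈ V v') ∧ r' - r ∈ V v)
    (hO : ∀ o, ∀ r ∈ R, (∀ v, O o ≤ V v → r ∈ V v) →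
      ∃ r' ∈ R, (∀ v, r' ∈ V v) ∧ (∀ o' ≠ o, r' ∈ O o') ∧ r' - r ∈ O o) :
    ∃ E, Ns R E (range O ∪ range V) := by
  obtain ⟨E, -, h⟩ := (ns_empty R).steps (finite_range V) (by
    rintro _ ⟨v, rfl⟩ r hr -
    obtain ⟨r', a1, a2, a3⟩ := hV v r hr
    exact ⟨r', a1, fun _ h => h.elim, by rintro _ ⟨v', rfl⟩ h; exact a2 v' fun e => h (e ▸ rfl), a3⟩)
  rw [union_empty] at h
  obtain ⟨E', -, h'⟩ := h.steps (finite_range O) (by
    rintro _ ⟨o, rfl⟩ r hr k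
    obtain ⟨r', a1, a2, a3, a4⟩ := hO o r hr fun v => k _ ⟨v, rfl⟩
    exact ⟨r', a1, by rintro _ ⟨v, rfl⟩; exact a2 v,
      by rintro _ ⟨o', rfl⟩ h; exact a3 o' fun e => h (e ▸ rfl), a4⟩)
  exact ⟨E', h'⟩

/-- iterated Mayer–Vietoris: a zone `B` with finitely many overlaps -/
theorem multi_mv {ν : Type*} (s : Finset ν) {B : Submodule K M} {V In Out : ν → Submodule K M}
    (mv : ∀ v ∈ s, ∀ r ∈ R, r ∈ V v → ∃ b ∈ R, b ∈ Out v ∧ b - r ∈ In v)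
    (h1 : ∀ v ∈ s, In v ≤ B) (h2 : ∀ v ∈ s, ∀ v' ∈ s, v' ≠ v → In v ≤ Out v')
    (h3 : ∀ v ∈ s, Out v ≤ V v) {r : M} (hr : r ∈ R) (h : ∀ v ∈ s, r ∈ V v) :
    ∃ r' ∈ R, (∀ v ∈ s, r' ∈ Out v) ∧ r' - r ∈ B := by
  classical
  have key : ∀ t ⊆ s, ∃ r' ∈ R, (∀ v ∈ t, r' ∈ Out v) ∧ (∀ v ∈ s, r' ∈ V v) ∧ r' - r ∈ B := by
    intro t
    induction t using Finset.induction_on with
    | empty => exact fun _ => ⟨r, hr, by simp, h, by simp⟩
    | insert v t hv ih =>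
      intro ht
      obtain ⟨r', a1, a2, a3, a4⟩ := ih ((Finset.subset_insert _ _).trans ht)
      have hs : v ∈ s := ht (Finset.mem_insert_self _ _)
      obtain ⟨b, b1, b2, b3⟩ := mv v hs r' a1 (a3 v hs)
      refine ⟨b, b1, fun u hu => ?_, fun u hu => ?_, by simpa using add_mem (h1 v hs b3) a4⟩
      · rcases Finset.mem_insert.1 hu with rfl | hu'
        · exact b2
        · simpa using add_mem (h2 v hs u (ht hu) (fun e => hv (e ▸ hu')) b3) (a2 u hu')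
      · by_cases e : u = v
        · exact e ▸ h3 v hs b2
        · simpa using add_mem (h3 u hu (h2 v hs u hu e b3)) (a3 u hu)
  obtain ⟨r', a1, a2, -, a4⟩ := key s subset_rfl
  exact ⟨r', a1, a2, a4⟩

/-- normal forms on finitely many separated families of zones -/
theorem ns_join {ι : Type*} [Fintype ι] {Ri Ei : ι → Submodule K M}
    {𝒜i : ι → Set (Submodule K M)} (h : ∀ i, Ns (Ri i) (Ei i) (𝒜i i))
    (h1 : ∀ i, ∀ r ∈ R, ∃ r' ∈ Ri i, ∀ A ∈ 𝒜i i, r' - r ∈ A)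
    (h2 : ∀ i, ∀ r ∈ Ri i, ∃ r' ∈ R, (∀ A ∈ 𝒜i i, r' - r ∈ A) ∧ ∀ j ≠ i, ∀ A ∈ 𝒜i j, r' ∈ A) :
    Ns R (⨅ i, Ei i) (⋃ i, 𝒜i i) := by
  classical
  refine ⟨fun f => ?_, fun A hA e he r hr k => ?_, fun f hf => (Submodule.mem_iInf _).2 fun i =>
    (h i).low f fun A hA => hf A (mem_iUnion.2 ⟨i, hA⟩)⟩
  · choose r hr he using fun i => (h i).top f
    choose r' a1 a2 a3 using fun i => h2 i (r i) (hr i)
    refine ⟨∑ i, r' i, sum_mem fun i _ => a1 i, (Submodule.mem_iInf _).2 fun i => ?_⟩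
    have : f - ∑ j, r' j = f - r i - (r' i - r i + ∑ j ∈ Finset.univ.erase i, r' j) := by
      rw [← Finset.add_sum_erase _ _ (Finset.mem_univ i)]; abel
    rw [this]
    exact sub_mem (he i) ((h i).low _ fun A hA => add_mem (a2 i A hA)
      (sum_mem fun j hj => a3 j i (Finset.ne_of_mem_erase hj).symm A hA))
  · obtain ⟨i, hi⟩ := mem_iUnion.1 hA
    obtain ⟨r', a1, a2⟩ := h1 i r hr
    refine (h i).nf A hi e ((Submodule.mem_iInf _).1 he i) r' a1 ?_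
    convert sub_mem k (a2 A hi) using 1
    abel

variable {C : Submodule K N} {D : N →ₗ[K] M}

/-- **contraction of a wall**, adapted to the windows: `Z k` is the set of the zones of window `k`, `W k`
the cochains that vanish on the edges of window `k` -/
theorem Ns.exists_Hw (h : Ns (C.map D) E 𝒜) {Z : ℕ → Set (Submodule K M)} (hZ : Antitone Z)
    (hZ0 : Z 0 ⊆ 𝒜) {W : ℕ → Submodule K N} (hW : Monotone W) (n : ℕ)
    (fl : ∀ k < n, ∀ c ∈ C, (∀ A ∈ Z k, D c ∈ A) →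
      ∃ x ∈ C, (∀ A ∈ 𝒜, D x ∈ A) ∧ c - x ∈ W (k + 1)) :
    ∃ H : M →ₗ[K] N, (∀ f, H f ∈ C ∧ f - D (H f) ∈ E) ∧ (∀ f, (∀ A ∈ 𝒜, f ∈ A) → H f = 0) ∧
      ∀ k < n, ∀ f, (∀ A ∈ Z k, f ∈ A) → H f ∈ W (k + 1) := by
  obtain ⟨H, hH⟩ := exists_lin (C.comap (LinearMap.snd K M N) ⊓
      E.comap (LinearMap.fst K M N - D ∘ₗ LinearMap.snd K M N))
    (V := fun k => if k = 0 then sInf 𝒜 else if k ≤ n then sInf (Z (k - 1)) else ⊤)
    (W := fun k => if k = 0 then ⊥ else if k ≤ n then W k else ⊤)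
    (monotone_nat_of_le_succ fun k => by
      simp only [Nat.add_eq_zero_iff, one_ne_zero, and_false, if_false, Nat.add_sub_cancel]
      split_ifs with h1 h2 h3 h4
      all_goals first | exact le_top | omega | skip
      · exact sInf_le_sInf (h1 ▸ hZ0)
      · exact sInf_le_sInf (hZ (Nat.sub_le _ _)))
    (monotone_nat_of_le_succ fun k => by
      simp only [Nat.add_eq_zero_iff, one_ne_zero, and_false, if_false]
      split_ifs with h1 h2 h3 h4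
      all_goals first | exact le_top | exact bot_le | omega | exact hW k.le_succ) (n + 1)
    fun k hk f hf => by
      obtain ⟨_, ⟨c, hc, rfl⟩, he⟩ := h.top f
      split_ifs at hf ⊢ with h1 h2
      · exact ⟨0, rfl, C.zero_mem, by simpa using h.low f (Submodule.mem_sInf.1 hf)⟩
      · obtain ⟨k, rfl⟩ := Nat.exists_eq_add_one_of_ne_zero h1
        obtain ⟨x, a1, a2, a3⟩ := fl k h2 c hc fun A hA =>
          h.nf' (hZ0 (hZ (Nat.zero_le _) hA)) (neg_mem he) ⟨c, hc, rfl⟩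
            (by simpa using Submodule.mem_sInf.1 hf A hA) (by simp)
        refine ⟨c - x, a3, sub_mem hc a1, show f - D (c - x) ∈ E from ?_⟩
        rw [map_sub, ← sub_add]
        exact add_mem he (h.low _ a2)
      · exact ⟨c, trivial, hc, he⟩
  refine ⟨H, fun f => (hH (n + 1) le_rfl f (by simp)).2, fun f hf => ?_, fun k hk f hf => ?_⟩
  · simpa using (hH 0 (by omega) f (by simpa using hf)).1
  · simpa [show k + 1 ≤ n from hk] using (hH (k + 1) (by omega) f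
      (by simpa [show k + 1 ≤ n from hk] using hf)).1

/-- **global contraction** that agrees with the contractions of the walls modulo `W i` -/
theorem Ns.exists_Hg (h : Ns (C.map D) E 𝒜) {ι : Type*} [Fintype ι] {Ci W : ι → Submodule K N}
    {Di : ι → N →ₗ[K] M} {Ei : ι → Submodule K M} {𝒜i : ι → Set (Submodule K M)}
    (hi : ∀ i, Ns ((Ci i).map (Di i)) (Ei i) (𝒜i i)) (hE : ∀ i, E ≤ Ei i) (hA : ∀ i, 𝒜i i ⊆ 𝒜)
    {Hi : ι → M →ₗ[K] N} (h1 : ∀ i f, Hi i f ∈ Ci i ∧ f - Di i (Hi i f) ∈ Ei i)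
    (h2 : ∀ i f, (∀ A ∈ 𝒜i i, f ∈ A) → Hi i f = 0) (hC : ∀ i, C ≤ Ci i)
    (hD : ∀ i, ∀ c ∈ C, ∀ A ∈ 𝒜i i, D c - Di i c ∈ A)
    (adj : ∀ i, ∀ c ∈ Ci i, (∀ A ∈ 𝒜i i, Di i c ∈ A) →
      ∃ x ∈ C, (∀ A ∈ 𝒜, D x ∈ A) ∧ c - x ∈ W i ∧ ∀ j ≠ i, x ∈ W j) :
    ∃ H : M →ₗ[K] N, (∀ f, H f ∈ C ∧ f - D (H f) ∈ E ∧ ∀ i, H f - Hi i f ∈ W i) ∧
      ∀ f, (∀ A ∈ 𝒜, f ∈ A) → H f = 0 := by
  classical
  obtain ⟨H, hH⟩ := exists_lin (C.comap (LinearMap.snd K M N) ⊓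
      (E.comap (LinearMap.fst K M N - D ∘ₗ LinearMap.snd K M N) ⊓
      ⨅ i, (W i).comap (LinearMap.snd K M N - Hi i ∘ₗ LinearMap.fst K M N)))
    (V := fun k => if k = 0 then sInf 𝒜 else ⊤) (W := fun k => if k = 0 then ⊥ else ⊤)
    (monotone_nat_of_le_succ fun k => by simp) (monotone_nat_of_le_succ fun k => by simp) 1
    fun k _ f hf => by
      split_ifs at hf ⊢ with h0
      · have hf' := Submodule.mem_sInf.1 hf
        exact ⟨0, rfl, C.zero_mem, by simpa using h.low f hf', (Submodule.mem_iInf _).2 fun i => by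
          simp [h2 i f fun A hA' => hf' A (hA i hA')]⟩
      obtain ⟨_, ⟨c, hc, rfl⟩, he⟩ := h.top f
      choose x a1 a2 a3 a4 using fun i => adj i (c - Hi i f) (sub_mem (hC i hc) (h1 i f).1)
        fun A hA' => (hi i).nf' hA' (sub_mem (h1 i f).2 (hE i he))
          ⟨_, sub_mem (hC i hc) (h1 i f).1, rfl⟩ (by
            convert neg_mem (hD i c hc A hA') using 1
            simp only [map_sub]; abel) (by simp)
      refine ⟨c - ∑ i, x i, trivial, sub_mem hc (sum_mem fun i _ => a1 i),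
        show f - D (c - ∑ i, x i) ∈ E from ?_, (Submodule.mem_iInf _).2 fun i =>
          show c - ∑ i, x i - Hi i f ∈ W i from ?_⟩
      · rw [map_sub, map_sum, ← sub_add]
        exact add_mem he (h.low (∑ i, D (x i)) fun A hA' => sum_mem fun i _ => a2 i A hA')
      · have := sub_mem (a3 i) (sum_mem fun j (hj : j ∈ Finset.univ.erase i) =>
          a4 j i (Finset.ne_of_mem_erase hj).symm)
        convert this using 1
        rw [← Finset.add_sum_erase _ _ (Finset.mem_univ i)]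
        abel
  refine ⟨H, fun f => ?_, fun f hf => by simpa using (hH 0 (by omega) f (by simpa using hf)).1⟩
  obtain ⟨-, a1, a2, a3⟩ := hH 1 le_rfl f (by simp)
  exact ⟨a1, a2, fun i => (Submodule.mem_iInf _).1 a3 i⟩

end Crest.Agent.N255.Lp
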